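import Vale.Agent.P219.H817.R11
import Vale.Agent.P219.H861.Area2

namespace Vale.Agent.Results.P219.FinitePerimeterRigidity

open Vale.Agent.P219.Co MeasureTheory Set
open scoped ENNReal NNReal

/-- The generalized Cartan-Hadamard conjecture with the equality case; the isoperimetric inequality
for all measurable sets of finite volume, in terms of De Giorgi's perimeter, with the
characterization of the equality case (the perimeter of a smooth domain is its boundary area); and
the Pólya-Szegő inequality on every Cartan-Hadamard manifold, with its consequences: the sharp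
Sobolev constants of the balls of the space form (Faber-Krahn), and the sharp `L¹` Sobolev
inequality. -/
theorem result {n : ℕ} (hn : 2 ≤ n) {K : ℝ} (hK : K ≤ 0)
    (M : RiemMetric n) (hM : GeodesicallyComplete M) (hs : SecLE M K) :
    (IsoperimetricIneq M K ∧
      ∀ (D : SmoothDomain n) (r : ℝ), 0 ≤ r →
        riemVol M D.carrier = ENNReal.ofReal (modelVol n K r) →
        riemArea M D = ENNReal.ofReal (modelArea n K r) → IsometricToBallK M K D r) ∧
    (∀ S : Set (E n), MeasurableSet S → riemVol M S ≠ ⊤ → ∃ r : ℝ, 0 ≤ r ∧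
      riemVol M S = ENNReal.ofReal (modelVol n K r) ∧
      ENNReal.ofReal (modelArea n K r) ≤ perimeter M S ∧
      (perimeter M S = ENNReal.ofReal (modelArea n K r) ↔
        ∃ D : SmoothDomain n, S =ᵐ[leb n] D.carrier ∧ IsometricToBallK M K D r)) ∧
    (∀ D : SmoothDomain n, perimeter M D.carrier = riemArea M D) ∧
    (∀ f : E n → ℝ, ContDiff ℝ 1 f → HasCompactSupport f →
      (∀ t : ℝ, 0 ≤ t → ∫⁻ r in {r | t < rearr M K f r} ∩ Ioi 0,
        ENNReal.ofReal (modelArea n K r) = riemVol M {x | t < |f x|}) ∧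
      (∀ C : ℝ≥0, (∀ x, gradNorm M f x ≤ C) → LipschitzOnWith C (rearr M K f) (Ici 0)) ∧
      (∀ p : ℝ, 1 ≤ p → radEnergy n K p (rearr M K f) ≤ energy M p f) ∧
      (∀ p q R : ℝ, 1 ≤ p → 0 < q → 0 < R →
        riemVol M {x | f x ≠ 0} ≤ ENNReal.ofReal (modelVol n K R) →
        sobConst n K p q R * mass M q f ^ (p / q) ≤ energy M p f) ∧
      ENNReal.ofReal (n * omega n ^ (1 / (n : ℝ))) *
        mass M ((n : ℝ) / (n - 1)) f ^ (((n : ℝ) - 1) / n) ≤ energy M 1 f) ∧
    ∀ p q R : ℝ, 1 ≤ p → 0 < q → q ≤ p → 0 < R →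
      0 < sobConst n K p q R ∧ sobConst n K p q R ≠ ⊤ := by
  refine ⟨cartanHadamard_q1 hn hK M hM hs, fun S hS hfin => isop_rigid hn hK M hM hs hS hfin,
    fun D => le_antisymm (perimeter_le_area' M D) (area_le_perimeter hn M D),
    fun f hf hcs => ⟨fun t ht => equimeas (by omega) M K hf.continuous hcs ht,
      fun C hC => rearr_lipschitz hn hK M hM hs hf hcs hC,
      fun p hp => polya_szego hn hK M hM hs hf hcs hp,
      fun p q R hp hq hR hV => sobolev_ball hn hK M hM hs hf hcs hp hq hR hV, ?_⟩,
    fun p q R hp hq hqp hR => sobConst_bounds (by omega) K hp hq hqp hR⟩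
  have h := sobolev hn hK M hM hs hf hcs
  unfold gradMass at h
  unfold mass energy
  simp only [Real.rpow_one]
  exact h

end Vale.Agent.Results.P219.FinitePerimeterRigidity
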