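import Vale.Agent.P219.H817.T13

namespace Vale.Agent.Results.P219.FinitePerimeterSobolev

open Vale.Agent.P219.Co MeasureTheory Set
open scoped ENNReal NNReal

/-- The generalized Cartan-Hadamard conjecture with the equality case; the isoperimetric inequality
for all measurable sets of finite volume; and the Pólya-Szegő inequality on every Cartan-Hadamard
manifold, with its consequences: the sharp Sobolev constants of the balls of the space form
(Faber-Krahn), and the sharp `L¹` Sobolev inequality. -/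
theorem result {n : ℕ} (hn : 2 ≤ n) {K : ℝ} (hK : K ≤ 0)
    (M : RiemMetric n) (hM : GeodesicallyComplete M) (hs : SecLE M K) :
    (IsoperimetricIneq M K ∧
      ∀ (D : SmoothDomain n) (r : ℝ), 0 ≤ r →
        riemVol M D.carrier = ENNReal.ofReal (modelVol n K r) →
        riemArea M D = ENNReal.ofReal (modelArea n K r) → IsometricToBallK M K D r) ∧
    (∀ S : Set (E n), MeasurableSet S → riemVol M S ≠ ⊤ → ∃ r : ℝ, 0 ≤ r ∧
      riemVol M S = ENNReal.ofReal (modelVol n K r) ∧
      ENNReal.ofReal (modelArea n K r) ≤ perimeter M S) ∧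
    (∀ f : E n → ℝ, ContDiff ℝ 1 f → HasCompactSupport f →
      (∀ t : ℝ, 0 ≤ t → ∫⁻ r in {r | t < rearr M K f r} ∩ Ioi 0,
        ENNReal.ofReal (modelArea n K r) = riemVol M {x | t < |f x|}) ∧
      (∀ C : ℝ≥0, (∀ x, gradNorm M f x ≤ C) → LipschitzOnWith C (rearr M K f) (Ici 0)) ∧
      (∀ p : ℝ, 1 ≤ p → radEnergy n K p (rearr M K f) ≤ energy M p f) ∧
      (∀ p q R : ℝ, 1 ≤ p → 0 < q → 0 < R →
        riemVol M {x | f x ≠ 0} ≤ ENNReal.ofReal (modelVol n K R) →
        sobConst n K p q R * mass M q f ^ (p / q) ≤ energy M p f) ∧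
      ENNReal.ofReal (n * omega n ^ (1 / (n : ℝ))) *
        mass M ((n : ℝ) / (n - 1)) f ^ (((n : ℝ) - 1) / n) ≤ energy M 1 f) ∧
    ∀ p q R : ℝ, 1 ≤ p → 0 < q → q ≤ p → 0 < R →
      0 < sobConst n K p q R ∧ sobConst n K p q R ≠ ⊤ := by
  refine ⟨cartanHadamard_q1 hn hK M hM hs, fun S hS hfin => isop_all hn hK M hM hs hS hfin,
    fun f hf hcs => ⟨fun t ht => equimeas (by omega) M K hf.continuous hcs ht,
      fun C hC => rearr_lipschitz hn hK M hM hs hf hcs hC,
      fun p hp => polya_szego hn hK M hM hs hf hcs hp,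
      fun p q R hp hq hR hV => sobolev_ball hn hK M hM hs hf hcs hp hq hR hV, ?_⟩,
    fun p q R hp hq hqp hR => sobConst_bounds (by omega) K hp hq hqp hR⟩
  have h := sobolev hn hK M hM hs hf hcs
  unfold gradMass at h
  unfold mass energy
  simp only [Real.rpow_one]
  exact h

end Vale.Agent.Results.P219.FinitePerimeterSobolev
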